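import Vale.Agent.P232.Slice.Defs
import Vale.Agent.P232.BallTube
import Vale.Agent.P232.OneDim.CaseCData

/-!
# P232: the one-axis inequality of case C

Up to area `0.396` the slice bound is `√(π a)` and the ball-or-tube bound applies; beyond it a
bisection certificate supplies affine calibrations, whose weights are concave on every piece.
-/

open MeasureTheory Set Real

namespace Vale.Agent.P232.CaseC

/-- Conversion from units. -/
noncomputable def u (n : ℤ) : ℝ := (n : ℝ) / 1000000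

theorem u_le {m n : ℤ} (h : m ≤ n) : u m ≤ u n := by
  unfold u
  gcongr

theorem u_lt {m n : ℤ} (h : m < n) : u m < u n := by
  unfold u
  gcongr

theorem cube_candidate_le {v : ℝ} (h1 : v ≤ 1 / 2) :
    cubeCandidate v ≤ 1 ∧ cubeCandidate v ≤ √(π * v) ∧
      cubeCandidate v ≤ (9 * π / 2) ^ ((1 : ℝ) / 3) * v ^ ((2 : ℝ) / 3) := by
  have e : (36 * π) ^ ((1 : ℝ) / 3) = 2 * (9 * π / 2) ^ ((1 : ℝ) / 3) := by
    rw [show 36 * π = (2 : ℝ) ^ (3 : ℝ) * (9 * π / 2) by norm_num; ring,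
      mul_rpow (by positivity) (by positivity), ← rpow_mul zero_le_two]
    norm_num
  simp only [cubeCandidate, candidate, min_eq_left (by linarith : v ≤ 1 - v), e]
  refine ⟨?_, ?_, ?_⟩
  · linarith [min_le_right
      (min (2 * (9 * π / 2) ^ ((1 : ℝ) / 3) * v ^ ((2 : ℝ) / 3)) (2 * √(π * v))) 2]
  · linarith [(min_le_left _ (2 : ℝ)).trans (min_le_right
      (2 * (9 * π / 2) ^ ((1 : ℝ) / 3) * v ^ ((2 : ℝ) / 3)) (2 * √(π * v)))]
  · linarith [(min_le_left _ (2 : ℝ)).trans (min_le_left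
      (2 * (9 * π / 2) ^ ((1 : ℝ) / 3) * v ^ ((2 : ℝ) / 3)) (2 * √(π * v)))]

theorem measurable_sig (c l : ℝ) : Measurable (sig c l pC) := by
  unfold sig pC
  fun_prop

theorem sig_integrable (c l x y : ℝ) : IntervalIntegrable (sig c l pC) volume x y := by
  refine (intervalIntegrable_const (c := (1 : ℝ))).mono_fun
    (measurable_sig c l).aestronglyMeasurable (Filter.Eventually.of_forall fun a => ?_)
  simp only [sig, norm_one, Real.norm_of_nonneg (sqrt_nonneg _)]
  exact sqrt_le_one.2 (by nlinarith [sq_nonneg (max (c + l * a) 0 / pC a)])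

/-- `f² q + g² ≤ q` for the three affine pieces. -/
def Under (a f g : ℝ) : Prop :=
  f ^ 2 * (3141592 / 1000000 * a) + g ^ 2 ≤ 3141592 / 1000000 * a ∧
  f ^ 2 * (544558 / 1000000 + 1772232 / 1000000 * a) + g ^ 2
    ≤ 544558 / 1000000 + 1772232 / 1000000 * a ∧
  f ^ 2 * (1617984 / 1000000) + g ^ 2 ≤ 1617984 / 1000000

theorem under_real {c l A f : ℤ} (h : okNode c l A f = true) :
    0 ≤ u A ∧ 0 ≤ u f ∧ u f ≤ 1 ∧ Under (u A) (u f) (u c + u l * u A) := by
  obtain ⟨hA, hf, hf1, e1, e2, e3⟩ := of_decide_eq_true h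
  simp only [dd] at hf1 e1 e2 e3
  have hA' : (0 : ℝ) ≤ A := by exact_mod_cast hA
  have hf' : (0 : ℝ) ≤ f := by exact_mod_cast hf
  have hf1' : (f : ℝ) ≤ 1000000 := by exact_mod_cast hf1
  rify at e1 e2 e3
  refine ⟨by unfold u; positivity, by unfold u; positivity, ?_, ?_, ?_, ?_⟩
  · unfold u
    linarith
  all_goals unfold u
  all_goals ring_nf at e1 e2 e3 ⊢
  all_goals linarith

theorem piece_convex {q₀ q₁ g₀ g₁ f₀ f₁ s t : ℝ} (hs : 0 ≤ s) (ht : 0 ≤ t) (hst : s + t = 1)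
    (hq₀ : 0 ≤ q₀) (hq₁ : 0 ≤ q₁) (hf₀ : f₀ ^ 2 ≤ 1) (hf₁ : f₁ ^ 2 ≤ 1)
    (h₀ : f₀ ^ 2 * q₀ + g₀ ^ 2 ≤ q₀) (h₁ : f₁ ^ 2 * q₁ + g₁ ^ 2 ≤ q₁) :
    (s * f₀ + t * f₁) ^ 2 * (s * q₀ + t * q₁) + (s * g₀ + t * g₁) ^ 2 ≤ s * q₀ + t * q₁ := by
  have e₀ : g₀ ^ 2 ≤ (1 - f₀ ^ 2) * q₀ := by linarith
  have e₁ : g₁ ^ 2 ≤ (1 - f₁ ^ 2) * q₁ := by linarith
  have hp₀ := mul_nonneg (sub_nonneg.2 hf₀) hq₁
  have hp₁ := mul_nonneg (sub_nonneg.2 hf₁) hq₀
  have hx : 2 * (g₀ * g₁) ≤ (1 - f₀ ^ 2) * q₁ + (1 - f₁ ^ 2) * q₀ := by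
    refine (le_abs_self _).trans (abs_le_of_sq_le_sq ?_ (add_nonneg hp₀ hp₁))
    nlinarith [mul_le_mul e₀ e₁ (sq_nonneg g₁) ((sq_nonneg g₀).trans e₀),
      sq_nonneg ((1 - f₀ ^ 2) * q₁ - (1 - f₁ ^ 2) * q₀)]
  obtain rfl : t = 1 - s := by linarith
  have hf : (s * f₀ + (1 - s) * f₁) ^ 2 ≤ s * f₀ ^ 2 + (1 - s) * f₁ ^ 2 := by
    nlinarith [mul_nonneg (mul_nonneg hs ht) (sq_nonneg (f₀ - f₁))]
  have hq := add_nonneg (mul_nonneg hs hq₀) (mul_nonneg ht hq₁)
  nlinarith [mul_le_mul_of_nonneg_right hf hq, mul_le_mul_of_nonneg_left e₀ (sq_nonneg s),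
    mul_le_mul_of_nonneg_left e₁ (sq_nonneg (1 - s)),
    mul_le_mul_of_nonneg_left hx (mul_nonneg hs ht)]

theorem under_convex {x y f₀ f₁ g₀ g₁ s t : ℝ} (hs : 0 ≤ s) (ht : 0 ≤ t) (hst : s + t = 1)
    (hx : 0 ≤ x) (hy : 0 ≤ y) (hf₀ : f₀ ∈ Icc (0 : ℝ) 1) (hf₁ : f₁ ∈ Icc (0 : ℝ) 1)
    (h₀ : Under x f₀ g₀) (h₁ : Under y f₁ g₁) :
    Under (s * x + t * y) (s * f₀ + t * f₁) (s * g₀ + t * g₁) := by
  have hf₀' := pow_le_one₀ (n := 2) hf₀.1 hf₀.2
  have hf₁' := pow_le_one₀ (n := 2) hf₁.1 hf₁.2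
  refine ⟨?_, ?_, ?_⟩
  · have := piece_convex hs ht hst (by linarith) (by linarith) hf₀' hf₁' h₀.1 h₁.1
    linear_combination this
  · have := piece_convex hs ht hst (by linarith) (by linarith) hf₀' hf₁' h₀.2.1 h₁.2.1
    obtain rfl : t = 1 - s := by linarith
    linear_combination this
  · have := piece_convex hs ht hst (by norm_num) (by norm_num) hf₀' hf₁' h₀.2.2 h₁.2.2
    obtain rfl : t = 1 - s := by linarith
    linear_combination this

theorem sqrt_le_lineC {a : ℝ} (h0 : 0 ≤ a) (h1 : a ≤ 396 / 1000) :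
    √(π * a) ≤ 812 / 1000 + 77 / 100 * a := by
  rw [Real.sqrt_le_left (by positivity)]
  nlinarith [pi_lt_d6, mul_le_mul_of_nonneg_right pi_lt_d6.le h0,
    mul_nonneg (sub_nonneg.2 h1) (sub_nonneg.2 h1)]

theorem pC_small {a : ℝ} (h0 : 0 ≤ a) (h1 : a ≤ 396 / 1000) : pC a = √(π * a) := by
  have h2 := sqrt_le_lineC h0 h1
  refine min_eq_left (le_min h2 (h2.trans ?_))
  linarith

theorem pC_nonneg {a : ℝ} (ha : 0 ≤ a) : 0 ≤ pC a := by
  unfold pC
  positivity

theorem under_apply {a f g : ℝ} (ha : 0 ≤ a) (hf1 : f ≤ 1) (hf0 : 0 ≤ f) (h : Under a f g) :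
    max g 0 ≤ pC a ∧ f ≤ √(1 - (max g 0 / pC a) ^ 2) := by
  have hf : f ^ 2 ≤ 1 := pow_le_one₀ hf0 hf1
  have hh : (max g 0) ^ 2 ≤ g ^ 2 := by
    rcases max_cases g 0 with ⟨e, -⟩ | ⟨e, -⟩
    · rw [e]
    · rw [e]; nlinarith
  obtain ⟨h1, h2, h3⟩ := h
  have key : max g 0 ^ 2 ≤ (1 - f ^ 2) * pC a ^ 2 := by
    refine hh.trans ?_
    have hf' := sub_nonneg.2 hf
    rcases min_choice (√(π * a)) (min (812 / 1000 + 77 / 100 * a) (1272 / 1000)) with e | e
    · rw [pC, e, sq_sqrt (by positivity)]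
      have : (3141592 / 1000000 : ℝ) * a ≤ π * a :=
        mul_le_mul_of_nonneg_right (by linarith [pi_gt_d6]) ha
      nlinarith [mul_le_mul_of_nonneg_left this hf']
    rw [pC, e]
    rcases min_choice (812 / 1000 + 77 / 100 * a) (1272 / 1000 : ℝ) with e' | e'
    · rw [e']
      have : 544558 / 1000000 + 1772232 / 1000000 * a ≤ (812 / 1000 + 77 / 100 * a) ^ 2 := by
        nlinarith [sq_nonneg (a - 44 / 100)]
      nlinarith [mul_le_mul_of_nonneg_left this hf']
    · rw [e']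
      nlinarith
  have hp := pC_nonneg ha
  refine ⟨abs_le_of_sq_le_sq' ?_ hp |>.2, Real.le_sqrt_of_sq_le ?_⟩
  · nlinarith [mul_nonneg (sq_nonneg f) (sq_nonneg (pC a))]
  · rcases hp.eq_or_lt with e | e
    · rw [← e]
      simpa using hf
    · rw [div_pow, le_sub_iff_add_le, ← le_sub_iff_add_le', div_le_iff₀ (by positivity)]
      linarith

/-- Between two nodes the weight dominates the interpolation. -/
theorem node_interp {c l A B f h : ℤ} (hA : okNode c l A f = true) (hB : okNode c l B h = true)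
    {s t : ℝ} (hs : 0 ≤ s) (ht : 0 ≤ t) (hst : s + t = 1) :
    max (u c + u l * (s * u A + t * u B)) 0 ≤ pC (s * u A + t * u B) ∧
      s * u f + t * u h ≤ sig (u c) (u l) pC (s * u A + t * u B) := by
  obtain ⟨a0, a1, a2, a3⟩ := under_real hA
  obtain ⟨b0, b1, b2, b3⟩ := under_real hB
  have := under_convex hs ht hst a0 b0 ⟨a1, a2⟩ ⟨b1, b2⟩ a3 b3
  rw [show s * (u c + u l * u A) + t * (u c + u l * u B) = u c + u l * (s * u A + t * u B) by
    linear_combination u c * hst] at this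
  have h1 : s * u f + t * u h ≤ 1 := by
    nlinarith [mul_le_mul_of_nonneg_left a2 hs, mul_le_mul_of_nonneg_left b2 ht]
  exact under_apply (by positivity) h1 (by positivity) this

theorem segment_integral {c l A B f h : ℤ} (hA : okNode c l A f = true) (hB : okNode c l B h = true)
    (hAB : A ≤ B) :
    (u B - u A) * (u f + u h) / 2 ≤ ∫ a in u A..u B, sig (u c) (u l) pC a := by
  rcases (u_le hAB).eq_or_lt with e | e
  · simp [e]
  set k : ℝ := (u h - u f) / (u B - u A)
  have hne : u B - u A ≠ 0 := sub_ne_zero.2 e.ne'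
  calc (u B - u A) * (u f + u h) / 2 = ∫ a in u A..u B, (u f - k * u A) + k * a := by
        rw [intervalIntegral.integral_add intervalIntegrable_const
          (Continuous.intervalIntegrable (by fun_prop) _ _),
          intervalIntegral.integral_const, intervalIntegral.integral_const_mul, integral_id]
        simp only [k, smul_eq_mul]
        field_simp
        ring
    _ ≤ _ := by
        refine intervalIntegral.integral_mono_on e.le
          (Continuous.intervalIntegrable (by fun_prop) _ _) (sig_integrable _ _ _ _) ?_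
        intro a ⟨ha0, ha1⟩
        have := node_interp hA hB (s := (u B - a) / (u B - u A)) (t := (a - u A) / (u B - u A))
          (div_nonneg (by linarith) (by linarith)) (div_nonneg (by linarith) (by linarith))
          (by rw [← add_div, div_eq_one_iff_eq hne]; ring)
        have ea : (u B - a) / (u B - u A) * u A + (a - u A) / (u B - u A) * u B = a := by
          field_simp
          ring
        rw [ea] at this
        refine le_trans (le_of_eq ?_) this.2
        simp only [k]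
        field_simp
        ring

theorem chain_integral {c l e : ℤ} : ∀ (p : ℤ × ℤ) (r : List (ℤ × ℤ)), chain c l e p r = true →
    okNode c l p.1 p.2 = true ∧ u p.1 ≤ u e ∧
      (area p r : ℝ) / 2000000000000 ≤ ∫ a in u p.1..u e, sig (u c) (u l) pC a
  | p, [], h => by
    simp only [chain, Bool.and_eq_true, decide_eq_true_eq] at h
    refine ⟨h.1, u_le h.2, ?_⟩
    simp only [area, Int.cast_zero, zero_div]
    exact intervalIntegral.integral_nonneg (u_le h.2) fun a _ => sqrt_nonneg _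
  | p, q :: r, h => by
    simp only [chain, Bool.and_eq_true, decide_eq_true_eq] at h
    obtain ⟨hq, hqe, ih⟩ := chain_integral q r h.2
    refine ⟨h.1.1, (u_le h.1.2).trans hqe, ?_⟩
    have hs := segment_integral h.1.1 hq h.1.2
    rw [← intervalIntegral.integral_add_adjacent_intervals (b := u q.1)
      (sig_integrable _ _ _ _) (sig_integrable _ _ _ _)]
    refine le_trans (le_of_eq ?_) (add_le_add hs ih)
    simp only [area, u]
    push_cast
    ring

theorem okEnd_sound {h m : ℤ} {k : ℕ} {v₀ v₁ : ℤ} {h' : ℤ} {v y : ℝ}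
    (h₀ : okEnd h m k v₀ = true) (h₁ : okEnd h' m k v₁ = true) (hv : v ∈ Icc (0 : ℝ) (1 / 2))
    {s t : ℝ} (hs : 0 ≤ s) (ht : 0 ≤ t) (hst : s + t = 1) (ev : v = s * u v₀ + t * u v₁)
    (ey : y = (s * h + t * h') / 2000000000000) : cubeCandidate v ≤ y := by
  obtain ⟨c1, c2, c3⟩ := cube_candidate_le hv.2
  obtain rfl : t = 1 - s := by linarith
  subst ey
  unfold u at ev
  match k with
  | 0 =>
    replace h₀ := of_decide_eq_true h₀
    replace h₁ := of_decide_eq_true h₁
    simp only [dd] at h₀ h₁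
    rify at h₀ h₁
    refine c1.trans ?_
    linarith [mul_le_mul_of_nonneg_left h₀ hs, mul_le_mul_of_nonneg_left h₁ ht]
  | 1 =>
    obtain ⟨hm, h₀⟩ := of_decide_eq_true h₀
    obtain ⟨-, h₁⟩ := of_decide_eq_true h₁
    simp only [dd] at h₀ h₁
    rify at hm h₀ h₁
    have hm' : (0 : ℝ) < m / 1000000 := by positivity
    refine c2.trans ((tube_le_line hv.1 hm').trans ?_)
    have : π / (4 * ((m : ℝ) / 1000000)) ≤ 3141593 / 1000000 / (4 * (m / 1000000)) :=
      div_le_div_of_nonneg_right (by linarith [pi_lt_d6]) (by positivity)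
    refine le_trans (add_le_add_right this _) ?_
    rw [ev]
    field_simp
    linarith [mul_le_mul_of_nonneg_left h₀ hs, mul_le_mul_of_nonneg_left h₁ ht]
  | n + 2 =>
    obtain ⟨hm, h₀⟩ := of_decide_eq_true h₀
    obtain ⟨-, h₁⟩ := of_decide_eq_true h₁
    simp only [dd] at h₀ h₁
    rify at hm h₀ h₁
    have hm' : (0 : ℝ) < m / 1000000 := by positivity
    refine c3.trans ((ball_le_line hv.1 hm').trans ?_)
    have : 2 * π / (3 * ((m : ℝ) / 1000000) ^ 2)
        ≤ 2 * (3141593 / 1000000) / (3 * (m / 1000000) ^ 2) :=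
      div_le_div_of_nonneg_right (by linarith [pi_lt_d6]) (by positivity)
    refine le_trans (add_le_add_right this _) ?_
    rw [ev]
    field_simp
    linarith [mul_le_mul_of_nonneg_left h₀ hs, mul_le_mul_of_nonneg_left h₁ ht]

/-- Convex coordinates in an interval. -/
theorem exists_coord {x y z : ℝ} (h : z ∈ Icc x y) :
    ∃ s t : ℝ, 0 ≤ s ∧ 0 ≤ t ∧ s + t = 1 ∧ z = s * x + t * y := by
  obtain ⟨s, t, hs, ht, hst, e⟩ := (Convex.mem_Icc (h.1.trans h.2)).1 h
  exact ⟨s, t, hs, ht, hst, e.symm⟩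

/-- The conclusion of case C for given calibrations. -/
def Good' (c l α β v : ℝ) : Prop :=
  (∀ a ∈ Icc β α, c + l * a ≤ pC a) ∧ cubeCandidate v ≤ c + l * v + ∫ a in β..α, sig c l pC a

/-- The conclusion with the margin of the certificate. -/
def GoodMargin (c l α β v : ℝ) : Prop :=
  (∀ a ∈ Icc β α, c + l * a ≤ pC a) ∧
    cubeCandidate v + 1 / 1000000 ≤ c + l * v + ∫ a in β..α, sig c l pC a

theorem leaf_sound {a₀ a₁ b₀ b₁ v₀ v₁ c l m : ℤ} {k : ℕ} {ns : List (ℤ × ℤ)}
    (h : okLeaf a₀ a₁ b₀ b₁ v₀ v₁ c l m k ns = true) {α β v : ℝ}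
    (ha : α ∈ Icc (u a₀) (u a₁)) (hb : β ∈ Icc (u b₀) (u b₁)) (hv : v ∈ Icc (u v₀) (u v₁))
    (hβα : β ≤ α) (hv' : v ∈ Icc (0 : ℝ) (1 / 2)) : GoodMargin (u c) (u l) α β v := by
  simp only [okLeaf, Bool.and_eq_true] at h
  obtain ⟨⟨⟨⟨hb0, ha1⟩, hns⟩, h₀⟩, h₁⟩ := h
  refine ⟨fun a ⟨h1, h2⟩ => ?_, ?_⟩
  · obtain ⟨s, t, hs, ht, hst, e⟩ := exists_coord (x := u b₀) (y := u a₁) (z := a)
      ⟨hb.1.trans h1, h2.trans ha.2⟩
    rw [e]
    exact (le_max_left _ _).trans (node_interp hb0 ha1 hs ht hst).1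
  have hint : (total ns : ℝ) / 2000000000000 ≤ ∫ a in β..α, sig (u c) (u l) pC a := by
    match ns with
    | [] =>
      simp only [total, Int.cast_zero, zero_div]
      exact intervalIntegral.integral_nonneg hβα fun a _ => sqrt_nonneg _
    | p :: r =>
      simp only [Bool.and_eq_true, decide_eq_true_eq] at hns
      obtain ⟨-, hpe, ih⟩ := chain_integral p r hns.1
      refine ih.trans (intervalIntegral.integral_mono_interval (hb.2.trans (u_le hns.2)) hpe ha.1
        (Filter.Eventually.of_forall fun a => sqrt_nonneg _) (sig_integrable _ _ _ _))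
  obtain ⟨s, t, hs, ht, hst, e⟩ := exists_coord hv
  refine le_trans ?_ (add_le_add_right hint _)
  rw [← le_sub_iff_add_le]
  refine okEnd_sound h₀ h₁ hv' hs ht hst e ?_
  obtain rfl : t = 1 - s := by linarith
  rw [e]
  unfold u
  push_cast [dd]
  ring

/-- The calibration chosen by a tree. -/
noncomputable def pick : Tree → ℝ × ℝ × ℝ → ℝ × ℝ
  | .none => fun _ => (0, 0)
  | .leaf c l _ _ _ => fun _ => (u c, u l)
  | .sa t x y => fun p => if p.1 ≤ u t then pick x p else pick y p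
  | .sb t x y => fun p => if p.2.1 ≤ u t then pick x p else pick y p
  | .sv t x y => fun p => if p.2.2 ≤ u t then pick x p else pick y p

theorem measurable_pick : ∀ T, Measurable (pick T)
  | .none => measurable_const
  | .leaf _ _ _ _ _ => measurable_const
  | .sa _ x y => (measurable_pick x).ite (measurableSet_le (by fun_prop) measurable_const)
      (measurable_pick y)
  | .sb _ x y => (measurable_pick x).ite (measurableSet_le (by fun_prop) measurable_const)
      (measurable_pick y)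
  | .sv _ x y => (measurable_pick x).ite (measurableSet_le (by fun_prop) measurable_const)
      (measurable_pick y)

theorem check_sound : ∀ (T : Tree) (a₀ a₁ b₀ b₁ v₀ v₁ : ℤ), check T a₀ a₁ b₀ b₁ v₀ v₁ = true →
    ∀ α β v : ℝ, α ∈ Icc (u a₀) (u a₁) → β ∈ Icc (u b₀) (u b₁) → v ∈ Icc (u v₀) (u v₁) →
      β ≤ v → v ≤ α → v ∈ Icc (0 : ℝ) (1 / 2) →
      GoodMargin (pick T (α, β, v)).1 (pick T (α, β, v)).2 α β v
  | .none, _, _, _, _, _, _, h, _, _, _, ha, hb, hv, hβ, hα, _ => by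
    simp only [check, Bool.or_eq_true, decide_eq_true_eq] at h
    rcases h with h | h
    · linarith [u_lt h, hb.1, hv.2]
    · linarith [u_lt h, ha.2, hv.1]
  | .leaf _ _ _ _ _, _, _, _, _, _, _, h, _, _, _, ha, hb, hv, hβ, hα, hv' =>
    leaf_sound h ha hb hv (hβ.trans hα) hv'
  | .sa t x y, _, _, _, _, _, _, h, α, β, v, ha, hb, hv, hβ, hα, hv' => by
    simp only [check, Bool.and_eq_true] at h
    simp only [pick]
    split_ifs with hc
    · exact check_sound x _ _ _ _ _ _ h.1 α β v ⟨ha.1, hc⟩ hb hv hβ hα hv'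
    · exact check_sound y _ _ _ _ _ _ h.2 α β v ⟨(not_le.1 hc).le, ha.2⟩ hb hv hβ hα hv'
  | .sb t x y, _, _, _, _, _, _, h, α, β, v, ha, hb, hv, hβ, hα, hv' => by
    simp only [check, Bool.and_eq_true] at h
    simp only [pick]
    split_ifs with hc
    · exact check_sound x _ _ _ _ _ _ h.1 α β v ha ⟨hb.1, hc⟩ hv hβ hα hv'
    · exact check_sound y _ _ _ _ _ _ h.2 α β v ha ⟨(not_le.1 hc).le, hb.2⟩ hv hβ hα hv'
  | .sv t x y, _, _, _, _, _, _, h, α, β, v, ha, hb, hv, hβ, hα, hv' => by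
    simp only [check, Bool.and_eq_true] at h
    simp only [pick]
    split_ifs with hc
    · exact check_sound x _ _ _ _ _ _ h.1 α β v ha hb ⟨hv.1, hc⟩ hβ hα hv'
    · exact check_sound y _ _ _ _ _ _ h.2 α β v ha hb ⟨(not_le.1 hc).le, hv.2⟩ hβ hα hv'

theorem cert_ok : check cert 396000 1000000 0 500000 0 500000 = true := by decide +kernel

/-- Below `0.396` the bound is the ball-or-tube bound. -/
theorem small_bound_eq {α β v : ℝ} (h0 : 0 ≤ β) (hβ : β ≤ v) (hα : v ≤ α) (hαpos : 0 < α)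
    (h1 : α ≤ 396 / 1000) :
    √π * (√α * √β) / (√α + √β) + √π / (√α + √β) * v +
      ∫ a in β..α, sig (√π * (√α * √β) / (√α + √β)) (√π / (√α + √β)) pC a
      = tubeBound √α √β v := by
  have hapos := sqrt_pos.2 hαpos
  have eα := sq_sqrt hαpos.le
  have eβ := sq_sqrt h0
  have hchord : ∀ a, √π * (√α * √β) / (√α + √β) + √π / (√α + √β) * a = chord √α √β a := by
    intro a
    simp only [chord]
    ring
  rw [tubeBound, eα, eβ, hchord]
  congr 1
  refine intervalIntegral.integral_congr fun a ha => ?_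
  rw [uIcc_of_le (hβ.trans hα)] at ha
  have hnn : 0 ≤ chord √α √β a :=
    div_nonneg (mul_nonneg (sqrt_nonneg _)
      (add_nonneg (h0.trans ha.1) (mul_nonneg hapos.le (sqrt_nonneg β)))) (by positivity)
  simp only [sig, hchord, max_eq_left hnn, pC_small (h0.trans ha.1) (ha.2.trans h1), div_pow,
    sq_sqrt (mul_nonneg pi_pos.le (h0.trans ha.1))]

/-- The chord calibration below `0.396`. -/
theorem small_sound {α β v : ℝ} (h0 : 0 ≤ β) (hβ : β ≤ v) (hα : v ≤ α) (hv : v ≤ 1 / 2)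
    (h1 : α ≤ 396 / 1000) :
    Good' (√π * (√α * √β) / (√α + √β)) (√π / (√α + √β)) α β v := by
  have hv0 : 0 ≤ v := h0.trans hβ
  obtain ⟨-, c2, c3⟩ := cube_candidate_le hv
  rcases (hv0.trans hα).eq_or_lt with rfl | hαpos
  · obtain rfl : v = 0 := le_antisymm hα hv0
    obtain rfl : β = 0 := le_antisymm hβ h0
    refine ⟨fun a ha => ?_, ?_⟩
    · simp [pC_nonneg ha.1]
    · simpa using c2
  have hab : √β ≤ √α := sqrt_le_sqrt (hβ.trans hα)
  have hapos := sqrt_pos.2 hαpos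
  have eα := sq_sqrt hαpos.le
  have eβ := sq_sqrt h0
  have hchord : ∀ a, √π * (√α * √β) / (√α + √β) + √π / (√α + √β) * a = chord √α √β a := by
    intro a
    simp only [chord]
    ring
  have hle : ∀ a ∈ Icc β α, chord √α √β a ≤ pC a := fun a ha => by
    rw [pC_small (h0.trans ha.1) (ha.2.trans h1)]
    exact chord_le (sqrt_nonneg _) hapos (by rw [eβ]; exact ha.1) (by rw [eα]; exact ha.2)
  refine ⟨fun a ha => (hchord a).symm ▸ hle a ha, ?_⟩
  rw [small_bound_eq h0 hβ hα hαpos h1]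
  exact (le_min c3 c2).trans (min_le_tubeBound (sqrt_nonneg β) hab hapos hv0)

/-- The calibration of case C. -/
noncomputable def calib (p : ℝ × ℝ × ℝ) : ℝ × ℝ :=
  if p.1 ≤ 396 / 1000 then
    (√π * (√p.1 * √p.2.1) / (√p.1 + √p.2.1), √π / (√p.1 + √p.2.1))
  else pick cert p

theorem measurable_calib : Measurable calib :=
  Measurable.ite (measurableSet_le (by fun_prop) measurable_const) (by fun_prop)
    (measurable_pick cert)

end Vale.Agent.P232.CaseC

namespace Vale.Agent.P232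

open CaseC in
theorem caseC_margin {α β v : ℝ} (h0 : 0 ≤ β) (hβ : β ≤ v) (hα : v ≤ α) (hα1 : α ≤ 1)
    (hv : v ≤ 1 / 2) (h : 396 / 1000 < α) :
    GoodMargin (calib (α, β, v)).1 (calib (α, β, v)).2 α β v := by
  simp only [calib, if_neg (not_le.2 h)]
  exact check_sound cert _ _ _ _ _ _ cert_ok α β v
    ⟨by simp only [u]; norm_num; linarith, by simp only [u]; norm_num; linarith⟩
    ⟨by simp only [u]; norm_num; linarith, by simp only [u]; norm_num; linarith⟩
    ⟨by simp only [u]; norm_num; linarith, by simp only [u]; norm_num; linarith⟩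
    hβ hα ⟨h0.trans hβ, hv⟩

open CaseC in
/-- The calibration bound of case C. -/
theorem caseC_good {α β v : ℝ} (h0 : 0 ≤ β) (hβ : β ≤ v) (hα : v ≤ α) (hα1 : α ≤ 1)
    (hv : v ≤ 1 / 2) : Good' (calib (α, β, v)).1 (calib (α, β, v)).2 α β v := by
  by_cases h : α ≤ 396 / 1000
  · simp only [calib, if_pos h]
    exact small_sound h0 hβ hα hv h
  · obtain ⟨h1, h2⟩ := caseC_margin h0 hβ hα hα1 hv (not_le.1 h)
    exact ⟨h1, le_trans (le_add_of_nonneg_right (by norm_num)) h2⟩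

open CaseC in
/-- The one-axis inequality of case C. -/
theorem stmtCaseC : StmtCaseC :=
  ⟨fun p => (calib p).1, fun p => (calib p).2, measurable_calib.fst, measurable_calib.snd,
    fun _ _ _ h0 hβ hα hα1 hv => caseC_good h0 hβ hα hα1 hv⟩

end Vale.Agent.P232
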