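import Mathlib

/-!
# P232: the integer checker for the certificate of case C

All numbers are in units of `10 ^ (-6)`; `q₁, q₂, q₃` are affine lower bounds for the squares of
`√(π A)`, `0.812 + 0.77 A` (tangent at `0.44`) and `1.272`.
-/

namespace Vale.Agent.P232.CaseC

/-- A bisection tree with affine calibrations at the leaves. -/
inductive Tree where
  | none
  | leaf (c l m : ℤ) (k : ℕ) (ns : List (ℤ × ℤ))
  | sa (t : ℤ) (lo hi : Tree)
  | sb (t : ℤ) (lo hi : Tree)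
  | sv (t : ℤ) (lo hi : Tree)

/-- The unit denominator. -/
def dd : ℤ := 1000000

/-- `f² q + G² ≤ D² q` at the point `A`, for the three pieces and `G = c D + l A`. -/
def okNode (c l A f : ℤ) : Bool :=
  decide (0 ≤ A ∧ 0 ≤ f ∧ f ≤ dd ∧
    f * f * (3141592 * A) + (c * dd + l * A) * (c * dd + l * A) ≤ dd * dd * (3141592 * A) ∧
    f * f * (544558 * dd + 1772232 * A) + (c * dd + l * A) * (c * dd + l * A)
      ≤ dd * dd * (544558 * dd + 1772232 * A) ∧
    f * f * (1617984 * dd) + (c * dd + l * A) * (c * dd + l * A) ≤ dd * dd * (1617984 * dd))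

/-- The nodes increase, are valid, and end at most at `e`. -/
def chain (c l e : ℤ) : ℤ × ℤ → List (ℤ × ℤ) → Bool
  | p, [] => okNode c l p.1 p.2 && decide (p.1 ≤ e)
  | p, q :: r => okNode c l p.1 p.2 && decide (p.1 ≤ q.1) && chain c l e q r

/-- The last node. -/
def final : ℤ × ℤ → List (ℤ × ℤ) → ℤ
  | p, [] => p.1
  | _, q :: r => final q r

/-- Twice the trapezoid sum. -/
def area : ℤ × ℤ → List (ℤ × ℤ) → ℤ
  | _, [] => 0
  | p, q :: r => (q.1 - p.1) * (p.2 + q.2) + area q r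

/-- Twice the trapezoid sum of a list of nodes. -/
def total : List (ℤ × ℤ) → ℤ
  | [] => 0
  | p :: r => area p r

/-- The comparison `2 c D + 2 l v + S` against the upper bound `k` of the candidate at `v`. -/
def okEnd (h m : ℤ) (k : ℕ) (v : ℤ) : Bool :=
  match k with
  | 0 => decide (2 * dd * dd ≤ h)
  | 1 => decide (0 < m ∧ 4 * m * m * v + 3141593 * dd * dd ≤ 2 * m * h)
  | _ => decide (0 < m ∧ 6 * m ^ 3 * v + 4 * 3141593 * dd ^ 3 ≤ 3 * m * m * h)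

/-- A leaf on the box `[a₀,a₁] × [b₀,b₁] × [v₀,v₁]`, with margin `10 ^ (-6)`. -/
def okLeaf (a₀ a₁ b₀ b₁ v₀ v₁ c l m : ℤ) (k : ℕ) (ns : List (ℤ × ℤ)) : Bool :=
  okNode c l b₀ 0 && okNode c l a₁ 0 &&
    (match ns with
      | [] => true
      | p :: r => chain c l a₀ p r && decide (b₁ ≤ p.1)) &&
    okEnd (2 * c * dd + 2 * l * v₀ + total ns - 2000000) m k v₀ &&
    okEnd (2 * c * dd + 2 * l * v₁ + total ns - 2000000) m k v₁

/-- The tree is a certificate for the box. -/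
def check : Tree → ℤ → ℤ → ℤ → ℤ → ℤ → ℤ → Bool
  | .none, _, a₁, b₀, _, v₀, v₁ => decide (v₁ < b₀) || decide (a₁ < v₀)
  | .leaf c l m k ns, a₀, a₁, b₀, b₁, v₀, v₁ => okLeaf a₀ a₁ b₀ b₁ v₀ v₁ c l m k ns
  | .sa t x y, a₀, a₁, b₀, b₁, v₀, v₁ => check x a₀ t b₀ b₁ v₀ v₁ && check y t a₁ b₀ b₁ v₀ v₁
  | .sb t x y, a₀, a₁, b₀, b₁, v₀, v₁ => check x a₀ a₁ b₀ t v₀ v₁ && check y a₀ a₁ t b₁ v₀ v₁
  | .sv t x y, a₀, a₁, b₀, b₁, v₀, v₁ => check x a₀ a₁ b₀ b₁ v₀ t && check y a₀ a₁ b₀ b₁ t v₁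

end Vale.Agent.P232.CaseC
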