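import Vale.Agent.P232.OneDim.CaseC
import Vale.Agent.P232.Rigid.Core.Specs

/-!
# P232: stability of the one-axis inequality of case C

Near-equality forces the slice-area ends of a ball (`β = 0`) or of a tube (`α = β = v`).
-/

open MeasureTheory Set Real

namespace Vale.Agent.P232

namespace CaseC

/-- The excess of the explicit lower bound of the chord calibration over the ball and tube values. -/
noncomputable def excess (α β v : ℝ) : ℝ :=
  chord √α √β v + deficitTerm √α √β -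
    min ((9 * π / 2) ^ ((1 : ℝ) / 3) * v ^ ((2 : ℝ) / 3)) (√(π * v))

/-- The excess vanishes only for the ends of a ball or of a tube. -/
theorem excess_pos {α β v : ℝ} (h0 : 0 ≤ β) (hβ : β ≤ v) (hα : v ≤ α) (hv : 0 < v) :
    0 ≤ excess α β v ∧
      (excess α β v = 0 → (β = 0 ∧ 4 * α * √α / (3 * √π) = v) ∨ (α = v ∧ β = v)) := by
  have hαpos : 0 < α := hv.trans_le hα
  have hapos := sqrt_pos.2 hαpos
  have hab : √β ≤ √α := sqrt_le_sqrt (hβ.trans hα)
  have hmin := min_le_chord_add (sqrt_nonneg β) hapos hv.le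
  unfold excess
  rcases hab.eq_or_lt with e | hlt
  · have e' : β = α := (sqrt_inj h0 hαpos.le).1 e
    rw [e] at hmin ⊢
    simp only [deficitTerm, sub_self, ne_eq, OfNat.ofNat_ne_zero, not_false_eq_true, zero_pow,
      zero_div, mul_zero, add_zero] at hmin ⊢
    refine ⟨by linarith, fun _ => .inr ⟨?_, ?_⟩⟩ <;> linarith
  rcases (sqrt_nonneg β).eq_or_lt with e | hbpos
  · have e' : β = 0 := (sqrt_eq_zero h0).1 e.symm
    have hm : 0 < √π / √α := div_pos (sqrt_pos.2 pi_pos) hapos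
    have key : chord √α √β v + deficitTerm √α √β
        = √π / √α * v + 2 * π / (3 * (√π / √α) ^ 2) := by
      rw [← e, div_pow, sq_sqrt pi_pos.le]
      simp only [chord, deficitTerm]
      field_simp
      ring
    rw [key]
    have hball := ball_le_line hv.le hm
    refine ⟨by linarith [min_le_left ((9 * π / 2) ^ ((1 : ℝ) / 3) * v ^ ((2 : ℝ) / 3)) (√(π * v))],
      fun h => .inl ⟨e', ?_⟩⟩
    by_contra hne
    have hr : 3 * (√π / √α) ^ 3 * v ≠ 4 * π := by
      intro h4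
      apply hne
      have h5 := sq_sqrt pi_pos.le
      have h6 := sq_sqrt hαpos.le
      field_simp at h4 ⊢
      rw [show √π ^ 3 = π * √π by rw [pow_succ, h5], show √α ^ 3 = α * √α by rw [pow_succ, h6]] at h4
      refine mul_left_cancel₀ pi_pos.ne' ?_
      linarith
    linarith [ball_lt_line hv.le hm hr,
      min_le_left ((9 * π / 2) ^ ((1 : ℝ) / 3) * v ^ ((2 : ℝ) / 3)) (√(π * v))]
  · have := two_thirds_lt_deficitTerm hbpos hlt
    exact ⟨by linarith, fun h => absurd h (by linarith)⟩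

/-- The excess is at most the excess of the calibration bound. -/
theorem excess_le {α β v : ℝ} (h0 : 0 ≤ β) (hβ : β ≤ v) (hα : v ≤ α) (hv : 0 < v)
    (hv1 : v ≤ 1 / 2) (h1 : α ≤ 396 / 1000) :
    excess α β v ≤ (calib (α, β, v)).1 + (calib (α, β, v)).2 * v +
      (∫ a in β..α, sig (calib (α, β, v)).1 (calib (α, β, v)).2 pC a) - cubeCandidate v := by
  have hαpos : 0 < α := hv.trans_le hα
  obtain ⟨-, c2, c3⟩ := cube_candidate_le hv1
  have h := small_bound_eq h0 hβ hα hαpos h1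
  simp only [calib, if_pos h1]
  rw [h, excess, tubeBound]
  have := deficitTerm_le_integral (sqrt_nonneg β) (sqrt_le_sqrt (hβ.trans hα)) (sqrt_pos.2 hαpos)
  linarith [le_min c3 c2]

end CaseC

open CaseC in
/-- Stability in case C: a near-optimal level has the slice areas of a ball or of a tube. -/
theorem caseC_strict {v₀ δ : ℝ} (hv₀ : 0 < v₀) (hδ : 0 < δ) :
    ∃ η > 0, ∀ α β v : ℝ, 0 ≤ β → β ≤ v → v ≤ α → α ≤ 1 → v ≤ 1 / 2 → |v - v₀| < η →
      (calib (α, β, v)).1 + (calib (α, β, v)).2 * v +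
        (∫ a in β..α, sig (calib (α, β, v)).1 (calib (α, β, v)).2 pC a) < cubeCandidate v + η →
      (β < δ ∧ |4 * α * √α / (3 * √π) - v₀| < δ) ∨ (|α - v₀| < δ ∧ |β - v₀| < δ) := by
  set U : Set (ℝ × ℝ × ℝ) := {p | (p.2.1 < δ ∧ |4 * p.1 * √p.1 / (3 * √π) - v₀| < δ) ∨
    (|p.1 - v₀| < δ ∧ |p.2.1 - v₀| < δ)} with hU
  have hUo : IsOpen U := by
    rw [hU, Set.ofPred_or, Set.ofPred_and, Set.ofPred_and]
    exact ((isOpen_lt (by fun_prop) continuous_const).inter
      (isOpen_lt (by fun_prop) continuous_const)).union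
      ((isOpen_lt (by fun_prop) continuous_const).inter
        (isOpen_lt (by fun_prop) continuous_const))
  set K : Set (ℝ × ℝ × ℝ) := (Icc (v₀ / 2) (396 / 1000) ×ˢ Icc 0 (1 / 2) ×ˢ Icc (v₀ / 2) (1 / 2))
    ∩ ({p | p.2.1 ≤ p.2.2} ∩ {p | p.2.2 ≤ p.1}) ∩ Uᶜ with hK
  have hKc : IsCompact K :=
    ((isCompact_Icc.prod (isCompact_Icc.prod isCompact_Icc)).inter_right
      ((isClosed_le (by fun_prop) (by fun_prop)).inter
        (isClosed_le (by fun_prop) (by fun_prop)))).inter_right hUo.isClosed_compl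
  set F : ℝ × ℝ × ℝ → ℝ := fun p => excess p.1 p.2.1 p.2.2 + |p.2.2 - v₀| with hF
  have hFc : ContinuousOn F K := by
    intro p hp
    have h1 : (0 : ℝ) < p.1 := lt_of_lt_of_le (by positivity) hp.1.1.1.1
    have hne : √p.1 + √p.2.1 ≠ 0 := by
      have := sqrt_pos.2 h1
      positivity
    refine ContinuousAt.continuousWithinAt ?_
    simp only [hF, excess, chord, deficitTerm]
    fun_prop (disch := first | assumption | norm_num)
  have hpos : ∀ p ∈ K, 0 < F p := by
    rintro ⟨α, β, v⟩ ⟨⟨⟨⟨hαl, -⟩, ⟨h0, -⟩, hvl, -⟩, hβ, hα⟩, hnot⟩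
    dsimp only [Set.mem_ofPred_eq] at hαl h0 hvl hβ hα
    obtain ⟨e1, e2⟩ := excess_pos h0 hβ hα (lt_of_lt_of_le (by linarith) hvl)
    rcases (add_nonneg e1 (abs_nonneg (v - v₀))).eq_or_lt with e | e
    · obtain ⟨z1, z2⟩ := (add_eq_zero_iff_of_nonneg e1 (abs_nonneg _)).1 e.symm
      obtain rfl : v = v₀ := sub_eq_zero.1 (abs_eq_zero.1 z2)
      refine absurd ?_ hnot
      rcases e2 z1 with ⟨r1, r2⟩ | ⟨r1, r2⟩
      · exact .inl ⟨by show β < δ; linarith,
          by show |4 * α * √α / (3 * √π) - v| < δ; rw [r2, sub_self, abs_zero]; exact hδ⟩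
      · exact .inr ⟨by show |α - v| < δ; rw [r1, sub_self, abs_zero]; exact hδ,
          by show |β - v| < δ; rw [r2, sub_self, abs_zero]; exact hδ⟩
    · exact e
  obtain ⟨c, hc, hcF⟩ : ∃ c > 0, ∀ p ∈ K, c ≤ F p := by
    rcases K.eq_empty_or_nonempty with he | hne
    · exact ⟨1, one_pos, by simp [he]⟩
    · obtain ⟨p, hp, hmin⟩ := hKc.exists_isMinOn hne hFc
      exact ⟨F p, hpos p hp, fun q hq => hmin hq⟩
  refine ⟨min (c / 2) (min (v₀ / 2) (1 / 1000000)), by positivity,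
    fun α β v h0 hβ hα hα1 hv hvv hb => ?_⟩
  obtain ⟨n1, n2, n3⟩ : min (c / 2) (min (v₀ / 2) (1 / 1000000)) ≤ c / 2 ∧
      min (c / 2) (min (v₀ / 2) (1 / 1000000)) ≤ v₀ / 2 ∧
      min (c / 2) (min (v₀ / 2) (1 / 1000000)) ≤ 1 / 1000000 :=
    ⟨min_le_left _ _, (min_le_right _ _).trans (min_le_left _ _),
      (min_le_right _ _).trans (min_le_right _ _)⟩
  by_cases h : α ≤ 396 / 1000
  · have hv2 : v₀ / 2 < v := by linarith [(abs_lt.1 hvv).1]
    by_contra hnot
    have hmem : (α, β, v) ∈ K :=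
      ⟨⟨⟨⟨by linarith, h⟩, ⟨h0, by linarith⟩, hv2.le, hv⟩, hβ, hα⟩, hnot⟩
    have h' : excess α β v + |v - v₀| ≥ c := hcF _ hmem
    linarith [excess_le h0 hβ hα (by linarith : 0 < v) hv h]
  · obtain ⟨-, hm⟩ := caseC_margin h0 hβ hα hα1 hv (not_le.1 h)
    linarith

open CaseC in
/-- The strict form of case C used for rigidity. -/
theorem stmtStrictC : Rigid.StmtStrictC :=
  ⟨fun p => (calib p).1, fun p => (calib p).2, measurable_calib.fst, measurable_calib.snd,
    fun _ _ _ h0 hβ hα hα1 hv => (caseC_good h0 hβ hα hα1 hv).1,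
    fun _ hv₀ _ hδ => caseC_strict hv₀.1 hδ⟩

end Vale.Agent.P232
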